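import Vale.Agent.P096.Lit.Statement

/-!
P096, all algebras: the statement for every pair, and its cases reduced to standard form.
-/

namespace Vale.Agent.P096.Three.Univ

universe u

variable {H : Type u} [NormedAddCommGroup H] [InnerProductSpace ℂ H] [CompleteSpace H]

/-- `ξ` is a unit vector, cyclic and separating for `M`. -/
structure CyclicSep (M : VonNeumannAlgebra H) (ξ : H) : Prop where
  norm_eq : ‖ξ‖ = 1
  separating : ∀ x ∈ M, x ξ = 0 → x = 0
  dense : Dense ((fun x : H →L[ℂ] H => x ξ) '' (M : Set (H →L[ℂ] H)))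

/-- `x ↦ ∑ ⟪ξ n, x (ξ n)⟫` is a faithful state on `M`. -/
def IsFaithfulState (M : VonNeumannAlgebra H) (ξ : ℕ → H) : Prop :=
  HasSum (fun n => ‖ξ n‖ ^ 2) 1 ∧ ∀ x ∈ M, (∀ n, x (ξ n) = 0) → x = 0

/-- The statement for algebras in standard form with separable predual. -/
def StdTarget : Prop :=
  ∃ δ C : ℝ, 0 < δ ∧ ∀ (H : Type u) [NormedAddCommGroup H] [InnerProductSpace ℂ H]
    [CompleteSpace H] (M N : VonNeumannAlgebra H) (ξ : H) (γ : ℝ),
    CyclicSep M ξ → Lit.IsCountablyGenerated H M → γ < δ → Lit.IsClose H M N γ →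
      NearConj M N (C * γ)

/-- The statement for countably generated algebras with a faithful normal state. -/
def StateTarget : Prop :=
  ∃ δ C : ℝ, 0 < δ ∧ 0 ≤ C ∧ ∀ (H : Type u) [NormedAddCommGroup H] [InnerProductSpace ℂ H]
    [CompleteSpace H] (M N : VonNeumannAlgebra H) (γ : ℝ),
    (∃ ξ, IsFaithfulState M ξ) → Lit.IsCountablyGenerated H M → γ < δ → Lit.IsClose H M N γ →
      NearConj M N (C * γ)

/-- The statement for countably generated algebras. -/
def CountableTarget : Prop :=
  ∃ δ C : ℝ, 0 < δ ∧ 0 ≤ C ∧ ∀ (H : Type u) [NormedAddCommGroup H] [InnerProductSpace ℂ H]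
    [CompleteSpace H] (M N : VonNeumannAlgebra H) (γ : ℝ),
    Lit.IsCountablyGenerated H M → γ < δ → Lit.IsClose H M N γ → NearConj M N (C * γ)

/-- Close von Neumann algebras are conjugate by a unitary near the identity, with absolute
constants. -/
def AllTarget : Prop :=
  ∃ δ C : ℝ, 0 < δ ∧ ∀ (H : Type u) [NormedAddCommGroup H] [InnerProductSpace ℂ H]
    [CompleteSpace H] (M N : VonNeumannAlgebra H) (γ : ℝ),
    γ < δ → Lit.IsClose H M N γ → NearConj M N (C * γ)

end Vale.Agent.P096.Three.Univ
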