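import Vale.Agent.P096.Three.Univ.Defs
import Vale.Agent.P096.Semi.Central

/-!
P096, all algebras: a countably generated algebra splits along central projections into pieces with
faithful normal states.
-/

open scoped InnerProductSpace
open Vale.Agent.P096.Two
open Vale.Agent.P096.Semi (CProj Blocks hull_central hull_blocks hull_mul_proj glue exists_central_move)

namespace Vale.Agent.P096.Three.Univ

universe u

variable {H : Type u} [NormedAddCommGroup H] [InnerProductSpace ℂ H] [CompleteSpace H]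

/-- The cyclic subspace of the commutant at `v`. -/
noncomputable def cyc (M : VonNeumannAlgebra H) (v : H) : Submodule ℂ H :=
  hull M.commutant (Submodule.span ℂ {v})

instance (M : VonNeumannAlgebra H) (v : H) : CompleteSpace (cyc M v) :=
  (Submodule.isClosed_topologicalClosure _).completeSpace_coe

lemma cyc_mem (M : VonNeumannAlgebra H) (v : H) : (cyc M v).starProjection ∈ M := by
  have h := hull_mem_commutant M.commutant (Submodule.span ℂ {v})
  rwa [M.commutant_commutant] at h

lemma mem_cyc (M : VonNeumannAlgebra H) (v : H) {c : H →L[ℂ] H} (hc : c ∈ M.commutant) :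
    c v ∈ cyc M v :=
  mem_hull hc (Submodule.mem_span_singleton_self v)

lemma self_mem_cyc (M : VonNeumannAlgebra H) (v : H) : v ∈ cyc M v := by
  simpa using mem_cyc M v (one_mem _)

/-- A closed subspace containing the images of `v` under the commutant contains the cyclic
subspace. -/
lemma cyc_le {M : VonNeumannAlgebra H} {v : H} {V : Submodule ℂ H} (hV : IsClosed (V : Set H))
    (h : ∀ c ∈ M.commutant, c v ∈ V) : cyc M v ≤ V := by
  refine Submodule.topologicalClosure_minimal _ (Submodule.span_le.2 ?_) hV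
  rintro _ ⟨c, hc, k, hk, rfl⟩
  obtain ⟨r, rfl⟩ := Submodule.mem_span_singleton.1 hk
  rw [map_smul]
  exact V.smul_mem r (h c hc)

/-- Every vector in `cyc M w` is orthogonal to everything `M` makes of `cyc M v`. -/
def Apart (M : VonNeumannAlgebra H) (v w : H) : Prop :=
  ∀ x ∈ M, (cyc M v).starProjection * x * (cyc M w).starProjection = 0

lemma apart_of_inner {M : VonNeumannAlgebra H} {v w : H}
    (h : ∀ x ∈ M, ∀ c ∈ M.commutant, ⟪c v, x w⟫_ℂ = 0) : Apart M v w := by
  intro x hx
  refine ContinuousLinearMap.ext fun a => ?_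
  rw [mul_apply_eq_comp, mul_apply_eq_comp, zero_apply,
    Submodule.starProjection_apply_eq_zero_iff]
  set k := (cyc M w).starProjection a
  have hk : k ∈ cyc M w := (cyc M w).starProjection_apply_mem a
  suffices cyc M w ≤ ((cyc M v)ᗮ).comap x.toLinearMap from this hk
  refine cyc_le ((Submodule.isClosed_orthogonal _).preimage x.continuous) fun c hc => ?_
  show x (c w) ∈ (cyc M v)ᗮ
  rw [show x (c w) = c (x w) from
    DFunLike.congr_fun (VonNeumannAlgebra.mem_commutant_iff.1 hc x hx) w, Submodule.mem_orthogonal]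
  intro y hy
  have hle : cyc M v ≤ (Submodule.span ℂ {c (x w)})ᗮ :=
    cyc_le (Submodule.isClosed_orthogonal _) fun d hd => by
      rw [Submodule.mem_orthogonal_singleton_iff_inner_left, ← ContinuousLinearMap.adjoint_inner_left,
        ← ContinuousLinearMap.star_eq_adjoint, ← mul_apply_eq_comp]
      exact h x hx _ (mul_mem (star_mem hc) hd)
  exact Submodule.mem_orthogonal_singleton_iff_inner_left.1 (hle hy)

/-- There are nonzero vectors, pairwise apart, whose pieces exhaust the space. -/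
theorem exists_vectors (M : VonNeumannAlgebra H) :
    ∃ S : Set H, (∀ v ∈ S, v ≠ 0) ∧ (∀ v ∈ S, ∀ w ∈ S, v ≠ w → Apart M v w) ∧
      ∀ a ∈ M.commutant, (∀ v ∈ S, a * (cyc M v).starProjection = 0) → a = 0 := by
  obtain ⟨S, hS⟩ := zorn_subset {S : Set H | (∀ v ∈ S, v ≠ 0) ∧
      ∀ v ∈ S, ∀ w ∈ S, v ≠ w → Apart M v w} (fun c hc hchain => by
    refine ⟨⋃₀ c, ⟨fun v ⟨s, hs, hv⟩ => (hc hs).1 v hv, fun v ⟨s, hs, hv⟩ w ⟨t, ht, hw⟩ hne => ?_⟩,
      fun s hs => Set.subset_sUnion_of_mem hs⟩
    rcases hchain.total hs ht with h | h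
    · exact (hc ht).2 v (h hv) w hw hne
    · exact (hc hs).2 v hv w (h hw) hne)
  refine ⟨S, hS.1.1, hS.1.2, fun a ha h0 => ?_⟩
  set V : Submodule ℂ H := (Submodule.span ℂ
    {z | ∃ v ∈ S, ∃ x ∈ M, ∃ c ∈ M.commutant, x (c v) = z}).topologicalClosure with hV
  have hmem : ∀ v ∈ S, ∀ x ∈ M, ∀ c ∈ M.commutant, x (c v) ∈ V := fun v hv x hx c hc =>
    Submodule.le_topologicalClosure _ (Submodule.subset_span ⟨v, hv, x, hx, c, hc, rfl⟩)
  have hle : V ≤ LinearMap.ker a.toLinearMap := by
    refine Submodule.topologicalClosure_minimal _ (Submodule.span_le.2 ?_) a.isClosed_ker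
    rintro _ ⟨v, hv, x, hx, c, hc, rfl⟩
    show a (x (c v)) = 0
    have e := DFunLike.congr_fun (h0 v hv) (c v)
    rw [mul_apply_eq_comp, Submodule.starProjection_eq_self_iff.2 (mem_cyc M v hc)] at e
    rw [show a (x (c v)) = x (a (c v)) from
      (DFunLike.congr_fun (VonNeumannAlgebra.mem_commutant_iff.1 ha x hx) _).symm, e, zero_apply,
      map_zero]
  suffices hVtop : V = ⊤ from ContinuousLinearMap.ext fun z =>
    hle (hVtop ▸ Submodule.mem_top : z ∈ V)
  by_contra hne
  haveI : CompleteSpace V := (Submodule.isClosed_topologicalClosure _).completeSpace_coe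
  obtain ⟨η, hη, hη0⟩ := (Submodule.ne_bot_iff _).1
    (fun h => hne (Submodule.orthogonal_eq_bot_iff.1 h))
  have horth : ∀ v ∈ S, ∀ x ∈ M, ∀ c ∈ M.commutant, ⟪x (c v), η⟫_ℂ = 0 := fun v hv x hx c hc =>
    Submodule.inner_right_of_mem_orthogonal (hmem v hv x hx c hc) hη
  have hηS : η ∉ S := fun h => hη0 <| by
    simpa using horth η h 1 (one_mem _) 1 (one_mem _)
  have h1 : ∀ v ∈ S, Apart M v η ∧ Apart M η v := fun v hv =>
    ⟨apart_of_inner fun x hx c hc => by
      rw [← ContinuousLinearMap.adjoint_inner_left, ← ContinuousLinearMap.star_eq_adjoint]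
      exact horth v hv _ (star_mem hx) c hc,
    apart_of_inner fun x hx c hc => by
      rw [← inner_conj_symm, ← ContinuousLinearMap.adjoint_inner_left,
        ← ContinuousLinearMap.star_eq_adjoint,
        show star c (x v) = x (star c v) from
          (DFunLike.congr_fun (VonNeumannAlgebra.mem_commutant_iff.1 (star_mem hc) x hx) v).symm,
        horth v hv x hx _ (star_mem hc), map_zero]⟩
  have hins : insert η S ∈ {S : Set H | (∀ v ∈ S, v ≠ 0) ∧
      ∀ v ∈ S, ∀ w ∈ S, v ≠ w → Apart M v w} := by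
    refine ⟨?_, ?_⟩
    · rintro v (rfl | hv)
      exacts [hη0, hS.1.1 v hv]
    · rintro v (rfl | hv) w (rfl | hw) hvw
      exacts [absurd rfl hvw, (h1 w hw).2, (h1 v hv).1, hS.1.2 v hv w hw hvw]
  exact hηS (hS.2 hins (Set.subset_insert η S) (Set.mem_insert η S))

/-- The words in a sequence of generators and their adjoints. -/
noncomputable def word (g : ℕ → (H →L[ℂ] H)) (l : List (ℕ × Bool)) : H →L[ℂ] H :=
  (l.map fun p => if p.2 then g p.1 else star (g p.1)).prod

/-- A countable family of vectors, not all zero, can be scaled to total square norm one. -/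
lemma exists_scaled {ι : Type*} [Countable ι] (v : ι → H) (hv : ∃ i, v i ≠ 0) :
    ∃ ζ : ℕ → H, HasSum (fun n => ‖ζ n‖ ^ 2) 1 ∧
      (∀ i, ∃ n, ∃ r : ℂ, v i = r • ζ n) ∧ ∀ n, ∃ i, ∃ r : ℂ, ζ n = r • v i := by
  obtain ⟨i₀, hi₀⟩ := hv
  haveI : Nonempty ι := ⟨i₀⟩
  obtain ⟨e, he⟩ := exists_surjective_nat ι
  set a : ℕ → ℝ := fun n => Real.sqrt ((1 / 2) ^ n / (1 + ‖v (e n)‖ ^ 2)) with ha
  have ha0 : ∀ n, 0 < a n := fun n => Real.sqrt_pos.2 (by positivity)
  have hb : ∀ n, (a n * ‖v (e n)‖) ^ 2 ≤ (1 / 2) ^ n := fun n => by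
    rw [mul_pow, ha, Real.sq_sqrt (by positivity), div_mul_eq_mul_div,
      div_le_iff₀ (by positivity)]
    gcongr
    linarith
  have hs : Summable fun n => (a n * ‖v (e n)‖) ^ 2 :=
    Summable.of_nonneg_of_le (fun n => by positivity) hb summable_geometric_two
  obtain ⟨n₀, hn₀⟩ := he i₀
  set s := ∑' n, (a n * ‖v (e n)‖) ^ 2 with hsdef
  have hpos : 0 < s := by
    refine hs.tsum_pos (fun n => by positivity) n₀ ?_
    rw [hn₀]
    exact pow_pos (mul_pos (ha0 n₀) (norm_pos_iff.2 hi₀)) 2
  refine ⟨fun n => ((a n / Real.sqrt s : ℝ) : ℂ) • v (e n), ?_, fun i => ?_,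
    fun n => ⟨e n, _, rfl⟩⟩
  · have h := hs.hasSum.div_const s
    rw [← hsdef, div_self hpos.ne'] at h
    refine h.congr_fun fun n => ?_
    rw [norm_smul, Complex.norm_real, Real.norm_eq_abs, abs_of_pos (div_pos (ha0 n)
      (Real.sqrt_pos.2 hpos)), mul_pow, mul_pow, div_pow, Real.sq_sqrt hpos.le]
    ring
  · obtain ⟨n, rfl⟩ := he i
    refine ⟨n, ((a n / Real.sqrt s : ℝ) : ℂ)⁻¹, ?_⟩
    rw [smul_smul, inv_mul_cancel₀ ?_, one_smul]
    exact_mod_cast (div_pos (ha0 n) (Real.sqrt_pos.2 hpos)).ne'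

/-- A piece of a countably generated algebra is countably generated and has a faithful normal
state. -/
theorem piece_state {M : VonNeumannAlgebra H} (hg : Lit.IsCountablyGenerated H M) {v : H}
    (hv : v ≠ 0) :
    Lit.IsCountablyGenerated (hull M (cyc M v)) (corner (hull M (cyc M v)) M) ∧
      ∃ ξ, IsFaithfulState (corner (hull M (cyc M v)) M) ξ := by
  obtain ⟨g, hgM, hgc⟩ := hg
  set L := hull M (cyc M v) with hL
  have hz : CProj M L.starProjection := hull_central (cyc_mem M v)
  have hA := isCorner_corner L M hz.mem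
  have hext : ∀ m ∈ M, ext' L (cmp L m) = L.starProjection * m := fun m hm => by
    rw [ext'_cmp, mul_assoc, ← hz.comm m hm, ← mul_assoc, L.isIdempotentElem_starProjection.eq]
  refine ⟨⟨fun n => cmp L (g n), fun n => (hA _).2 ⟨g n, hgM n, rfl⟩, ?_⟩, ?_⟩
  · intro T hT Y hY k
    obtain ⟨m, hm, rfl⟩ := (hA Y).1 hY
    have hTl : L.starProjection * ext' L T = ext' L T := ContinuousLinearMap.ext fun x => by
      rw [mul_apply_eq_comp, ext'_apply, proj_coe]
    have hTr : ext' L T * L.starProjection = ext' L T := by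
      rw [show L.starProjection = ext' L 1 from ContinuousLinearMap.ext fun _ => rfl, ← ext'_mul,
        mul_one]
    have hcomm : ext' L T ∈ commutantSet (Set.range g) := by
      rintro _ ⟨n, rfl⟩ x
      have e0 : cmp L (g n) * T = T * cmp L (g n) :=
        ContinuousLinearMap.ext fun x => hT _ ⟨n, rfl⟩ x
      have e := congrArg (ext' L) e0
      rw [ext'_mul, ext'_mul, hext _ (hgM n), ← mul_assoc, hTr,
        hz.comm _ (hgM n), mul_assoc, hTl] at e
      exact DFunLike.congr_fun e x
    have e := hgc hcomm m hm (k : H)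
    rw [ext'_apply, ext'_apply] at e
    have h1 : ((cmp L m k : L) : H) = m k := by
      have h := DFunLike.congr_fun (hz.comm m hm) (k : H)
      rw [mul_apply_eq_comp, mul_apply_eq_comp, proj_coe] at h
      rw [cmp_apply, h]
    refine Subtype.ext ?_
    have h2 : ((cmp L m (T k) : L) : H) = m (T k : H) := by
      have h := DFunLike.congr_fun (hz.comm m hm) ((T k : L) : H)
      rw [mul_apply_eq_comp, mul_apply_eq_comp, proj_coe] at h
      rw [cmp_apply, h]
    have hk : L.orthogonalProjectionOnto (k : H) = k :=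
      Submodule.orthogonalProjectionOnto_mem_subspace_eq_self k
    have hmk : L.orthogonalProjectionOnto (m (k : H)) = cmp L m k := Subtype.ext rfl
    rw [hk, hmk] at e
    exact h2.trans e
  · have hwM : ∀ l, word g l ∈ M := fun l => list_prod_mem fun y hy => by
      obtain ⟨p, -, rfl⟩ := List.mem_map.1 hy
      split
      · exact hgM p.1
      · exact star_mem (hgM p.1)
    have hwL : ∀ l, word g l v ∈ L := fun l => mem_hull (hwM l) (self_mem_cyc M v)
    obtain ⟨ζ, hζ1, hζv, -⟩ := exists_scaled (H := L) (fun l => ⟨word g l v, hwL l⟩)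
      ⟨[], fun h => hv <| by simpa [word] using congrArg Subtype.val h⟩
    refine ⟨ζ, hζ1, fun x hx hx0 => ?_⟩
    obtain ⟨m, hm, rfl⟩ := (hA x).1 hx
    set a := L.starProjection * m with ha
    have haM : a ∈ M := mul_mem hz.mem hm
    have haw : ∀ l, a (word g l v) = 0 := fun l => by
      obtain ⟨n, r, e⟩ := hζv l
      have : cmp L m (⟨word g l v, hwL l⟩ : L) = 0 := by
        rw [e, map_smul]
        exact (congrArg (r • ·) (hx0 n)).trans (smul_zero r)
      exact congrArg Subtype.val this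
    set V : Submodule ℂ H := ⨅ l, LinearMap.ker (a * word g l).toLinearMap with hV
    have hVc : IsClosed (V : Set H) := by
      rw [hV, Submodule.coe_iInf]
      exact isClosed_iInter fun l => (a * word g l).isClosed_ker
    haveI : CompleteSpace V := hVc.completeSpace_coe
    have hVmem : ∀ {z}, z ∈ V ↔ ∀ l, a (word g l z) = 0 := fun {z} => by
      simp [hV, Submodule.mem_iInf, mul_apply_eq_comp]
    have hinv : ∀ p : ℕ × Bool, ∀ z ∈ V, (if p.2 then g p.1 else star (g p.1)) z ∈ V :=
      fun p z hz => hVmem.2 fun l => by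
        have h := hVmem.1 hz (l ++ [p])
        obtain ⟨k, b⟩ := p
        cases b <;> simpa [word, mul_apply_eq_comp] using h
    have hP : V.starProjection ∈ commutantSet (Set.range g) := by
      rintro _ ⟨k, rfl⟩ z
      refine (Submodule.eq_starProjection_of_mem_of_inner_eq_zero
        (hinv (k, true) _ (V.starProjection_apply_mem z)) (fun w hw => ?_)).symm
      show ⟪g k z - g k (V.starProjection z), w⟫_ℂ = 0
      rw [← map_sub, ← ContinuousLinearMap.adjoint_inner_right]
      refine Submodule.starProjection_inner_eq_zero z _ ?_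
      simpa [ContinuousLinearMap.star_eq_adjoint] using hinv (k, false) w hw
    have hMV : ∀ y ∈ M, ∀ z ∈ V, y z ∈ V := fun y hy z hz => by
      have := hgc hP y hy z
      rw [Submodule.starProjection_eq_self_iff.2 hz] at this
      exact Submodule.starProjection_eq_self_iff.1 this.symm
    have hle : L ≤ V := by
      refine Submodule.topologicalClosure_minimal _ (Submodule.span_le.2 ?_) hVc
      rintro _ ⟨y, hy, k, hk, rfl⟩
      refine hMV y hy k (cyc_le hVc (fun c hc => hVmem.2 fun l => ?_) hk)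
      exact (DFunLike.congr_fun
        (VonNeumannAlgebra.mem_commutant_iff.1 hc _ (mul_mem haM (hwM l))) v).trans
        ((congrArg c (haw l)).trans (map_zero c))
    refine ContinuousLinearMap.ext fun k => Subtype.ext ?_
    have h := hVmem.1 (hle k.2) []
    simpa [word, ha, cmp_apply] using h

/-- From algebras with a faithful normal state to all countably generated algebras. -/
theorem countableTarget_of_state (h : StateTarget.{u}) : CountableTarget.{u} := by
  obtain ⟨δ₀, C₀, hδ, hC, h⟩ := h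
  refine ⟨min (1 / 100000) (δ₀ / 60000), 60000 * C₀ + 12800, by positivity, by positivity, ?_⟩
  intro H _ _ _ M N γ hg hlt hclose
  obtain ⟨hlt1, hlt2⟩ := lt_min_iff.1 hlt
  have hγ0 : 0 ≤ γ := by
    obtain ⟨x, _, hx⟩ := hclose.1 0 (zero_mem _)
      (ContinuousLinearMap.opNorm_le_bound _ zero_le_one fun z => by simp)
    exact (norm_nonneg _).trans hx
  obtain ⟨S, hS0, hap, hfull⟩ := exists_vectors M
  set K : S → Submodule ℂ H := fun v => cyc M v
  haveI : ∀ i, CompleteSpace (K i) := fun i => inferInstanceAs (CompleteSpace (cyc M i))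
  have hB := hull_blocks M K (fun i j hij x hx => hap _ i.2 _ j.2 (Subtype.coe_injective.ne hij) x hx)
    fun a ha h0 => hfull a ha fun v hv => h0 ⟨v, hv⟩
  have hz : ∀ i, CProj M (hull M (K i)).starProjection := fun i => hull_central (cyc_mem M i)
  obtain ⟨v, hv1, hvN⟩ := exists_central_move hclose hγ0 hlt1.le hz hB
  set N₁ := conjAlg v N
  obtain ⟨hv, hv'⟩ := Unitary.mem_iff.1 v.2
  have hz1 : ∀ i, CProj N₁ (hull M (K i)).starProjection := fun i => by
    refine ⟨(hz i).proj, mem_conjAlg.2 (hvN i).mem, fun y hy => ?_⟩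
    have e := congrArg (fun a => star (v : H →L[ℂ] H) * a * (v : H →L[ℂ] H))
      ((hvN i).comm _ (mem_conjAlg.1 hy))
    have k1 : ∀ a : H →L[ℂ] H, star (v : H →L[ℂ] H) * ((v : H →L[ℂ] H) * a) = a := fun a => by
      rw [← mul_assoc, hv, one_mul]
    simpa only [mul_assoc, k1, hv, mul_one] using e
  set γ₁ := γ + 2 * ‖(v : H →L[ℂ] H) - 1‖ * (1 + γ)
  have hγ₁ : γ₁ ≤ 60000 * γ := by
    have : 2 * ‖(v : H →L[ℂ] H) - 1‖ * (1 + γ) ≤ 2 * (12800 * γ) * 2 := by
      gcongr
      linarith
    linarith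
  have hγ₁0 : 0 ≤ γ₁ := add_nonneg hγ0 (by positivity)
  have hlt₁ : γ₁ < δ₀ := by
    rw [lt_div_iff₀ (by norm_num)] at hlt2
    linarith
  have hc₁ := close_conjAlg hclose v
  have hpieces : ∀ i, NearConj (corner (hull M (K i)) M) (corner (hull M (K i)) N₁)
      (C₀ * γ₁) := fun i => by
    obtain ⟨hgen, hst⟩ := piece_state hg (hS0 _ i.2)
    set L := hull M (K i)
    have hLM := isCorner_corner L M (hz i).mem
    have hLN := isCorner_corner L N₁ (hz1 i).mem
    refine h L (corner L M) (corner L N₁) γ₁ hst hgen hlt₁ ⟨fun b hb hb1 => ?_, fun b hb hb1 => ?_⟩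
    · obtain ⟨y, hy, hxy⟩ := hc₁.1 _ (ext'_mem L hLM (hz i).mem hb) ((norm_ext'_le L b).trans hb1)
      refine ⟨cmp L y, (hLN _).2 ⟨y, hy, rfl⟩, ?_⟩
      show ‖b - cmp L y‖ ≤ γ₁
      rw [← cmp_ext' L b, ← cmp_sub]
      exact (norm_cmp_le L _).trans hxy
    · obtain ⟨y, hy, hxy⟩ := hc₁.2 _ (ext'_mem L hLN (hz1 i).mem hb) ((norm_ext'_le L b).trans hb1)
      refine ⟨cmp L y, (hLM _).2 ⟨y, hy, rfl⟩, ?_⟩
      show ‖b - cmp L y‖ ≤ γ₁
      rw [← cmp_ext' L b, ← cmp_sub]
      exact (norm_cmp_le L _).trans hxy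
  obtain ⟨u, hu, hu1, hu2, hu3⟩ :=
    nearConj_of_conjAlg v (glue M N₁ _ hB hz hz1 (mul_nonneg hC hγ₁0) hpieces)
  refine ⟨u, hu, hu1.trans ?_, hu2, hu3⟩
  nlinarith [mul_le_mul_of_nonneg_left hγ₁ hC]

end Vale.Agent.P096.Three.Univ
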