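import Vale.Agent.P096.Three.Univ.Standard
import Vale.Agent.P096.Three.Univ.Sigma
import Vale.Agent.P096.Semi.Countable

/-!
P096, all algebras: the statement in standard form implies the statement for every pair of von
Neumann algebras, in every universe.
-/

namespace Vale.Agent.P096.Three.Univ

open Vale.Agent.P096.Two
open Vale.Agent.P096.Semi (exists_countable_pair nearConj_of_solvable)

universe u

variable {H : Type u} [NormedAddCommGroup H] [InnerProductSpace ℂ H] [CompleteSpace H]

/-- Countable generation is no restriction. -/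
theorem allTarget_of_countable (h : CountableTarget.{u}) : AllTarget.{u} := by
  obtain ⟨δ, C, hδ, hC, h⟩ := h
  obtain ⟨C₁, hC₁, hpair⟩ := exists_countable_pair.{u}
  set K := C * C₁ with hK
  have hK0 : 0 ≤ K := mul_nonneg hC hC₁
  set δ₀ := min 1 (δ / (C₁ + 1)) with hδ₀
  refine ⟨min δ₀ (1 / (24 * (K + 1) * (K + 1))), 4 * K, by positivity, ?_⟩
  intro H _ _ _ M N γ hlt hclose
  obtain ⟨hlt0, hlt2⟩ := lt_min_iff.1 hlt
  have hγ : 0 ≤ γ := by
    obtain ⟨x, _, hx⟩ := hclose.1 0 (zero_mem _)
      (ContinuousLinearMap.opNorm_le_bound _ zero_le_one fun z => by simp)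
    exact (norm_nonneg _).trans hx
  refine nearConj_of_solvable (δ := δ₀) hK0 (fun N' γ' hγ' hlt' hcl F G hF hG => ?_) hγ hlt0 ?_
    hclose
  · obtain ⟨hlt1, hltd⟩ := lt_min_iff.1 hlt'
    rcases hγ'.eq_or_lt with rfl | hpos
    · refine ⟨1, one_mem _, by simp, fun x hx => ?_, fun y hy => ?_⟩
      · obtain ⟨y, hy, hxy⟩ := near_scaled (S := M.toStarSubalgebra) (T := N'.toStarSubalgebra)
          (fun z hz h1 => hcl.1 z hz h1) (hF x hx)
        rw [zero_mul, norm_le_zero_iff, sub_eq_zero] at hxy
        rw [hxy]; simpa using hy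
      · obtain ⟨x, hx, hxy⟩ := near_scaled (S := N'.toStarSubalgebra) (T := M.toStarSubalgebra)
          (fun z hz h1 => hcl.2 z hz h1) (hG y hy)
        rw [zero_mul, norm_le_zero_iff, sub_eq_zero] at hxy
        rw [hxy]; simpa using hx
    obtain ⟨M₀, N₀, hgen, hMle, hNle, hFM, hGN, hcl₀⟩ :=
      hpair H M N' γ' hpos hlt1.le hcl F G hF hG
    have hsmall : C₁ * γ' < δ := by
      rw [lt_div_iff₀ (by positivity)] at hltd
      nlinarith
    obtain ⟨u, hu, hu1, huM, huN⟩ := h H M₀ N₀ (C₁ * γ') hgen hsmall hcl₀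
    have hU := unitary_of_isUnitaryOp hu
    refine ⟨u, hU, hu1.trans_eq (mul_assoc _ _ _).symm, fun x hx => ?_, fun y hy => ?_⟩
    · obtain ⟨y, hy, hxy⟩ := huM x (hFM x hx)
      rw [← eq_of_intertwines hU hxy]
      exact hNle y hy
    · obtain ⟨x, hx, hxy⟩ := huN y (hGN y hy)
      obtain ⟨h1', h2'⟩ := Unitary.mem_iff.1 hU
      rw [eq_of_intertwines hU hxy, show star u * (u * x * star u) * u =
        (star u * u) * x * (star u * u) by simp only [mul_assoc], h1', one_mul, mul_one]
      exact hMle x hx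
  · rw [lt_div_iff₀ (by positivity)] at hlt2
    linarith

/-- Standard form suffices for all von Neumann algebras. -/
theorem allTarget_of_std (h : StdTarget.{u}) : AllTarget.{u} :=
  allTarget_of_countable (countableTarget_of_state (stateTarget_of_std h))

end Vale.Agent.P096.Three.Univ
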