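import Vale.Agent.P096.Three.Univ.Defs
import Vale.Agent.P096.Full.Reduce.Standard

/-!
P096, all algebras: from standard form to all representations of an algebra with a faithful normal
state. The commutants of the amplified algebras have a corner on which it is in standard form.
-/

open scoped InnerProductSpace
open Vale.Agent.P096.Two
open Vale.Agent.P096.Full.Reduce (Copies rep repAlg repHom repHom_apply rep_apply rep_put rep_injective
  mem_repAlg mem_repAlg_commutant repAlg_close exists_ext_corner corner_generated nearConj_commutant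
  nearIso_of_rep)

namespace Vale.Agent.P096.Three.Univ

universe u

variable {H : Type u} [NormedAddCommGroup H] [InnerProductSpace ℂ H] [CompleteSpace H]

/-- The amplified algebra has a corner of its commutant on which it is in standard form. -/
theorem exists_corner {M : VonNeumannAlgebra H} (hM : ∃ ξ : ℕ → H, IsFaithfulState M ξ)
    (hg : Lit.IsCountablyGenerated H M) :
    ∃ (K : Submodule ℂ (Copies H)) (_ : CompleteSpace K),
      K.starProjection ∈ (repAlg M).commutant ∧ Full (repAlg M).commutant K ∧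
      ∃ ζ : K, CyclicSep (corner K (repAlg M).commutant).commutant ζ ∧
        Lit.IsCountablyGenerated K (corner K (repAlg M).commutant).commutant := by
  obtain ⟨ξ, hξ1, hfaith⟩ := hM
  -- the vector of the state
  have hmem : Memℓp (fun n => ξ n) 2 := by
    refine memℓp_gen ?_
    simpa using hξ1.summable
  set Ξ : Copies H := ⟨fun n => ξ n, hmem⟩
  have hΞ : ∀ n, (Ξ : ∀ _, H) n = ξ n := fun _ => rfl
  set X := repAlg M with hX
  set R := X.commutant with hR
  set K := hull X (Submodule.span ℂ {Ξ}) with hKdef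
  have hPR : K.starProjection ∈ R := hull_mem_commutant X _
  have hcyc : ∀ x ∈ M, rep x Ξ ∈ K := fun x hx =>
    mem_hull ((mem_repAlg M).2 ⟨x, hx, rfl⟩) (Submodule.mem_span_singleton_self Ξ)
  have hΞK : Ξ ∈ K := by
    have := hcyc 1 (one_mem M)
    rwa [← repHom_apply, map_one] at this
  have hnorm : ‖Ξ‖ = 1 := by
    have e : ‖Ξ‖ ^ 2 = 1 := by
      rw [← inner_self_eq_norm_sq (𝕜 := ℂ), lp.inner_eq_tsum, RCLike.re_tsum ℂ (lp.summable_inner (𝕜 := ℂ) Ξ Ξ)]
      simp only [inner_self_eq_norm_sq, hΞ]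
      exact hξ1.tsum_eq
    exact (pow_eq_one_iff_of_nonneg (norm_nonneg _) two_ne_zero).1 e
  have hXc : R.commutant = X := X.commutant_commutant
  have hzero : ∀ x ∈ M, rep x Ξ = 0 → x = 0 := fun x hx e =>
    hfaith x hx fun n => by
      have := congrArg (fun f : Copies H => f n) e
      simpa [rep_apply, hΞ] using this
  have hFull : Full R K := fun a ha haK => by
    rw [hXc] at ha
    obtain ⟨x, hx, rfl⟩ := (mem_repAlg M).1 ha
    have e := DFunLike.congr_fun haK Ξ
    rw [mul_apply_eq_comp, Submodule.starProjection_eq_self_iff.2 hΞK] at e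
    rw [hzero x hx e, ← repHom_apply, map_zero]
  have hfull := hFull.dense
  -- the algebra on the corner
  set A := (corner K R).commutant
  have hPx : ∀ x ∈ M, rep x * K.starProjection = K.starProjection * rep x := fun x hx =>
    VonNeumannAlgebra.mem_commutant_iff.1 hPR _ ((mem_repAlg M).2 ⟨x, hx, rfl⟩)
  have hAmem : ∀ T : K →L[ℂ] K, T ∈ A ↔ ∃ x ∈ M, cmp K (rep x) = T := by
    intro T
    constructor
    · intro h
      obtain ⟨b, hb, e⟩ := exists_ext_corner hfull hPR h
      rw [hXc] at hb
      obtain ⟨x, hx, rfl⟩ := (mem_repAlg M).1 hb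
      exact ⟨x, hx, e⟩
    · rintro ⟨x, hx, rfl⟩
      refine VonNeumannAlgebra.mem_commutant_iff.2 fun g hg => ?_
      obtain ⟨m, hm, rfl⟩ := (isCorner_corner K R hPR g).1 hg
      show cmp K m * cmp K (rep x) = cmp K (rep x) * cmp K m
      rw [← cmp_mul_right K _ _ (hPx x hx), ← cmp_mul_left K _ _ (hPx x hx),
        (mem_repAlg_commutant M).1 hm x hx]
  set ζ : K := ⟨Ξ, hΞK⟩ with hζ
  have happ : ∀ x ∈ M, ((cmp K (rep x) ζ : K) : Copies H) = rep x Ξ := fun x hx => by
    rw [cmp_apply]
    exact Submodule.starProjection_eq_self_iff.2 (hcyc x hx)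
  have hcmp : ∀ x ∈ M, ∀ y, cmp K (rep x) * cmp K (rep y) = cmp K (rep (x * y)) := fun x hx y => by
    rw [← cmp_mul_left K _ _ (hPx x hx), ← repHom_apply x, ← repHom_apply y, ← map_mul,
      repHom_apply]
  have hTC : CyclicSep A ζ := by
    refine ⟨hnorm, ?_, ?_⟩
    · intro S hS e
      obtain ⟨x, hx, rfl⟩ := (hAmem S).1 hS
      have e' : rep x Ξ = 0 := by rw [← happ x hx, e]; rfl
      rw [hzero x hx e', ← repHom_apply, map_zero]
      exact ContinuousLinearMap.ext fun k => Subtype.ext (by simp [cmp_apply])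
    · rw [Subtype.dense_iff]
      intro k hk
      let Φ : M.toStarSubalgebra.toSubalgebra.toSubmodule →ₗ[ℂ] Copies H :=
        { toFun := fun x => rep x Ξ
          map_add' := fun x y => by
            show rep ((x : H →L[ℂ] H) + (y : H →L[ℂ] H)) Ξ = _
            rw [← repHom_apply, map_add]; rfl
          map_smul' := fun c x => by
            show rep (c • (x : H →L[ℂ] H)) Ξ = c • rep (x : H →L[ℂ] H) Ξ
            rw [← repHom_apply, map_smul]; rfl }
      have hle : K ≤ (LinearMap.range Φ).topologicalClosure := by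
        refine Submodule.topologicalClosure_mono (Submodule.span_le.2 ?_)
        rintro _ ⟨T, hT, v, hv, rfl⟩
        obtain ⟨x, hx, rfl⟩ := (mem_repAlg M).1 hT
        obtain ⟨c, rfl⟩ := Submodule.mem_span_singleton.1 hv
        rw [map_smul]
        exact (LinearMap.range Φ).smul_mem c ⟨⟨x, hx⟩, rfl⟩
      refine closure_mono ?_ (hle hk)
      rintro _ ⟨x, rfl⟩
      exact ⟨cmp K (rep (x : H →L[ℂ] H)) ζ, ⟨_, (hAmem _).2 ⟨x, x.2, rfl⟩, rfl⟩, happ x x.2⟩
  exact ⟨K, inferInstance, hPR, hFull, ζ, hTC, corner_generated hg hAmem hPx⟩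

/-- From standard form to every representation. -/
theorem stateTarget_of_std : StdTarget.{u} → StateTarget.{u} := by
  rintro ⟨δ, C, hδ, hT⟩
  obtain ⟨C₁, hC₁, hcn⟩ := commutant_near.{u}
  obtain ⟨C₅, hC₅, hfin⟩ := Vale.Agent.P096.final.{u}
  obtain ⟨δ₁, L, hδ₁, hL, hcc⟩ := conj_of_corner.{u} (max C 0 * C₁) (by positivity)
  refine ⟨min (δ₁ / (C₁ + 1)) (min (δ / (700 * (C₁ + 1) * (C₁ + 1)))
    (1 / (2 * C₅ * L * C₁ + 1))), C₅ * (2 * (L * C₁)), by positivity, by positivity, ?_⟩
  intro H _ _ _ M N γ hM hg hlt hclose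
  simp only [lt_min_iff] at hlt
  obtain ⟨hlt1, hlt2, hlt3⟩ := hlt
  have hγ0 : 0 ≤ γ := by
    obtain ⟨x, _, hx⟩ := hclose.1 0 (zero_mem _)
      (ContinuousLinearMap.opNorm_le_bound _ zero_le_one fun z => by simp)
    exact (norm_nonneg _).trans hx
  obtain ⟨K, hKc, hPR, hRF, ζ, hTC, hAg⟩ := exists_corner hM hg
  haveI := hKc
  set X := repAlg M with hX
  set R := X.commutant with hR
  have hXc : R.commutant = X := X.commutant_commutant
  have hclR : Lit.IsClose (Copies H) R (repAlg N).commutant (C₁ * γ) := by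
    have hc := repAlg_close M hclose
    refine ⟨fun a ha ha1 => ?_, fun a ha ha1 => ?_⟩
    · obtain ⟨b, hb, hab⟩ := hcn (Copies H) (repAlg N).toStarSubalgebra X.toStarSubalgebra γ hγ0
        (fun z hz h1 => hc.2 z hz h1) a
        (Set.mem_centralizer_iff.2 (VonNeumannAlgebra.mem_commutant_iff.1 ha)) ha1
      exact ⟨b, VonNeumannAlgebra.mem_commutant_iff.2 hb, hab⟩
    · obtain ⟨b, hb, hab⟩ := hcn (Copies H) X.toStarSubalgebra (repAlg N).toStarSubalgebra γ hγ0
        (fun z hz h1 => hc.1 z hz h1) a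
        (Set.mem_centralizer_iff.2 (VonNeumannAlgebra.mem_commutant_iff.1 ha)) ha1
      exact ⟨b, VonNeumannAlgebra.mem_commutant_iff.2 hb, hab⟩
  -- the corner solver
  have hγ1 : C₁ * γ < δ₁ := by
    rw [lt_div_iff₀ (by positivity)] at hlt1
    nlinarith
  have hconj := hcc (Copies H) R (repAlg N).commutant K (C₁ * γ) hRF hPR hγ1 hclR
    fun N₁ _ hcl => by
      have hclA : Lit.IsClose K (corner K R).commutant (corner K N₁).commutant (C₁ * (700 * (C₁ * γ))) := by
        refine ⟨fun a ha ha1 => ?_, fun a ha ha1 => ?_⟩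
        · obtain ⟨b, hb, hab⟩ := hcn K (corner K N₁).toStarSubalgebra (corner K R).toStarSubalgebra
            (700 * (C₁ * γ)) (by positivity) (fun z hz h1 => hcl.2 z hz h1) a
            (Set.mem_centralizer_iff.2 (VonNeumannAlgebra.mem_commutant_iff.1 ha)) ha1
          exact ⟨b, VonNeumannAlgebra.mem_commutant_iff.2 hb, hab⟩
        · obtain ⟨b, hb, hab⟩ := hcn K (corner K R).toStarSubalgebra (corner K N₁).toStarSubalgebra
            (700 * (C₁ * γ)) (by positivity) (fun z hz h1 => hcl.1 z hz h1) a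
            (Set.mem_centralizer_iff.2 (VonNeumannAlgebra.mem_commutant_iff.1 ha)) ha1
          exact ⟨b, VonNeumannAlgebra.mem_commutant_iff.2 hb, hab⟩
      have hlt' : C₁ * (700 * (C₁ * γ)) < δ := by
        rw [lt_div_iff₀ (by positivity)] at hlt2
        nlinarith [mul_nonneg hC₁ hγ0]
      have h := nearConj_commutant
        (hT K (corner K R).commutant (corner K N₁).commutant ζ _ hTC hAg hlt' hclA)
      rw [show (corner K R).commutant.commutant = corner K R from VonNeumannAlgebra.commutant_commutant _,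
        VonNeumannAlgebra.commutant_commutant] at h
      obtain ⟨w, hw, hw1, h1, h2⟩ := h
      refine ⟨w, hw, hw1.trans ?_, h1, h2⟩
      rw [← mul_assoc C, mul_assoc (max C 0)]
      exact le_trans (le_of_eq (by ring))
        (mul_le_mul_of_nonneg_right (le_max_left C 0) (by positivity : 0 ≤ C₁ * (700 * (C₁ * γ))))
  have hconjX := nearConj_commutant hconj
  rw [hXc, VonNeumannAlgebra.commutant_commutant] at hconjX
  have hiso : NearIso M N (2 * (L * C₁) * γ) := by
    have := nearIso_of_rep hconjX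
    rwa [show 2 * (L * C₁) * γ = 2 * (L * (C₁ * γ)) by ring]
  have hsmall : C₅ * (2 * (L * C₁) * γ) < 1 := by
    rw [lt_div_iff₀ (by positivity)] at hlt3
    nlinarith
  have hres := ((hfin H (2 * (L * C₁) * γ) (by positivity)).2.1 M N hsmall).1 hiso
  obtain ⟨v, hv, hv1, g1, g2⟩ := hres
  exact ⟨v, hv, hv1.trans_eq (by ring), g1, g2⟩

end Vale.Agent.P096.Three.Univ
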