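import Vale.Agent.P096.Three.Univ.Main
import Vale.Agent.P096.Three.Spec

/-!
P096, all algebras: a separable space is a copy of one in `Type`, so the statement in standard form
on those spaces gives it in every universe.
-/

open scoped InnerProductSpace
open TopologicalSpace (SeparableSpace)

namespace Vale.Agent.P096.Three.Univ

universe u

variable {H : Type u} [NormedAddCommGroup H] [InnerProductSpace ℂ H] [CompleteSpace H]
  {H₀ : Type} [NormedAddCommGroup H₀] [InnerProductSpace ℂ H₀] [CompleteSpace H₀]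

/-- A separable space is isometric to one in `Type`. -/
theorem exists_small (H : Type u) [NormedAddCommGroup H] [InnerProductSpace ℂ H] [CompleteSpace H]
    [SeparableSpace H] :
    ∃ (s : Set ℕ), Nonempty (H ≃ₗᵢ[ℂ] lp (fun _ : s => ℂ) 2) := by
  obtain ⟨w, b, hb⟩ := exists_hilbertBasis ℂ H
  have hw : Countable w := by
    have hd : ∀ i j : w, i ≠ j → 1 ≤ dist (b i) (b j) := fun i j hij => by
      have e : ‖b i - b j‖ * ‖b i - b j‖ = 1 * 1 + 1 * 1 := by
        rw [sub_eq_add_neg, norm_add_sq_eq_norm_sq_add_norm_sq_of_inner_eq_zero (𝕜 := ℂ) _ _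
          (by rw [inner_neg_right, b.orthonormal.2 hij, neg_zero]), norm_neg, b.orthonormal.1 i,
          b.orthonormal.1 j]
      rw [dist_eq_norm]
      nlinarith [norm_nonneg (b i - b j)]
    refine Pairwise.countable_of_isOpen_disjoint
      (s := fun i : w => Metric.ball (b i) (1 / 2)) ?_ (fun i => Metric.isOpen_ball)
      fun i => Metric.nonempty_ball.2 (by norm_num)
    intro i j hij
    refine Metric.ball_disjoint_ball ?_
    linarith [hd i j hij]
  obtain ⟨f, hf⟩ := Countable.exists_injective_nat w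
  set E := Equiv.ofInjective f hf
  exact ⟨Set.range f, ⟨(HilbertBasis.mk (v := fun i => b (E.symm i))
    (b.orthonormal.comp _ E.symm.injective)
    (by rw [show Set.range (fun i => b (E.symm i)) = Set.range b from E.symm.surjective.range_comp b,
      b.dense_span])).repr⟩⟩

/-- The algebra carried to `H₀`. -/
noncomputable def carry (e : H ≃ₗᵢ[ℂ] H₀) (M : VonNeumannAlgebra H) : VonNeumannAlgebra H₀ where
  toStarSubalgebra := M.toStarSubalgebra.map e.conjStarAlgEquiv.toStarAlgHom
  centralizer_centralizer' := by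
    refine Set.Subset.antisymm ?_ Set.subset_centralizer_centralizer
    intro T hT
    refine ⟨e.conjStarAlgEquiv.symm T, ?_, e.conjStarAlgEquiv.apply_symm_apply T⟩
    show e.conjStarAlgEquiv.symm T ∈ (M : Set (H →L[ℂ] H))
    rw [← M.centralizer_centralizer]
    intro a ha
    refine (EquivLike.injective e.conjStarAlgEquiv) ?_
    rw [map_mul, map_mul, e.conjStarAlgEquiv.apply_symm_apply]
    refine hT _ fun y hy => ?_
    obtain ⟨m, hm, rfl⟩ := hy
    show e.conjStarAlgEquiv m * e.conjStarAlgEquiv a = e.conjStarAlgEquiv a * e.conjStarAlgEquiv m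
    rw [← map_mul, ← map_mul, ha m hm]

theorem mem_carry {e : H ≃ₗᵢ[ℂ] H₀} {M : VonNeumannAlgebra H} {T : H₀ →L[ℂ] H₀} :
    T ∈ carry e M ↔ ∃ m ∈ M, e.conjStarAlgEquiv m = T :=
  Iff.rfl

theorem norm_carry (e : H ≃ₗᵢ[ℂ] H₀) (x : H →L[ℂ] H) : ‖e.conjStarAlgEquiv x‖ = ‖x‖ :=
  StarAlgEquiv.norm_map e.conjStarAlgEquiv x

theorem close_carry (e : H ≃ₗᵢ[ℂ] H₀) {M N : VonNeumannAlgebra H} {γ : ℝ}
    (h : Lit.IsClose H M N γ) : Lit.IsClose H₀ (carry e M) (carry e N) γ := by
  have key : ∀ A B : VonNeumannAlgebra H, NearIncl (A : Set (H →L[ℂ] H)) B γ →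
      NearIncl (carry e A : Set (H₀ →L[ℂ] H₀)) (carry e B) γ := fun A B hAB T hT hT1 => by
    obtain ⟨m, hm, rfl⟩ := mem_carry.1 hT
    have hm1 : ‖m‖ ≤ 1 := (norm_carry e m) ▸ hT1
    obtain ⟨n, hn, hmn⟩ := hAB m hm hm1
    refine ⟨e.conjStarAlgEquiv n, mem_carry.2 ⟨n, hn, rfl⟩, ?_⟩
    show ‖e.conjStarAlgEquiv m - e.conjStarAlgEquiv n‖ ≤ γ
    rw [← map_sub, norm_carry]
    exact hmn
  exact ⟨key M N h.1, key N M h.2⟩

theorem nearConj_carry (e : H ≃ₗᵢ[ℂ] H₀) {M N : VonNeumannAlgebra H} {c : ℝ}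
    (h : NearConj (carry e M) (carry e N) c) : NearConj M N c := by
  obtain ⟨u, hu, hu1, h1, h2⟩ := h
  have hu1' : ‖u - 1‖ ≤ c := hu1
  have hU := unitary_of_isUnitaryOp hu
  obtain ⟨g1, g2⟩ := Unitary.mem_iff.1 hU
  set Φ := e.conjStarAlgEquiv with hΦ
  have hw : Φ.symm u ∈ unitary (H →L[ℂ] H) :=
    Unitary.mem_iff.2 ⟨by rw [← map_star, ← map_mul, g1, map_one],
      by rw [← map_star, ← map_mul, g2, map_one]⟩
  refine ⟨Φ.symm u, isUnitaryOp_of_unitary hw, ?_, fun x hx => ?_, fun y hy => ?_⟩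
  · show ‖Φ.symm u - 1‖ ≤ c
    rw [← norm_carry e, ← hΦ, map_sub, Φ.apply_symm_apply, map_one]
    exact hu1'
  · obtain ⟨T, hT, hxT⟩ := h1 _ (mem_carry.2 ⟨x, hx, rfl⟩)
    obtain ⟨y, hy, rfl⟩ := mem_carry.1 hT
    refine ⟨y, hy, intertwines_of_eq hw (EquivLike.injective Φ ?_)⟩
    rw [eq_of_intertwines hU hxT, map_mul, map_mul, map_star, Φ.apply_symm_apply]
  · obtain ⟨T, hT, hTy⟩ := h2 _ (mem_carry.2 ⟨y, hy, rfl⟩)
    obtain ⟨x, hx, rfl⟩ := mem_carry.1 hT
    refine ⟨x, hx, intertwines_of_eq hw (EquivLike.injective Φ ?_)⟩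
    rw [eq_of_intertwines hU hTy, map_mul, map_mul, map_star, Φ.apply_symm_apply]

omit [CompleteSpace H] in
/-- An algebra with a countable generating set and a cyclic vector acts on a separable space. -/
theorem separable_of_gen [CompleteSpace H] (M : VonNeumannAlgebra H) (ξ : H)
    (hd : Dense ((fun x : H →L[ℂ] H => x ξ) '' (M : Set (H →L[ℂ] H))))
    (hg : Lit.IsCountablyGenerated H M) : SeparableSpace H := by
  obtain ⟨g, -, hgen⟩ := hg
  set s : Set H := Set.range fun l : List (ℕ × Bool) => word g l ξ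
  set V := (Submodule.span ℂ s).topologicalClosure with hV
  haveI : CompleteSpace V := (Submodule.isClosed_topologicalClosure _).completeSpace_coe
  have hinv : ∀ p : ℕ × Bool, ∀ v ∈ V, (if p.2 then g p.1 else star (g p.1)) v ∈ V := by
    intro p v hv
    have h : V ≤ V.comap (if p.2 then g p.1 else star (g p.1)).toLinearMap := by
      refine Submodule.topologicalClosure_minimal _ (Submodule.span_le.2 ?_)
        ((Submodule.isClosed_topologicalClosure _).preimage (ContinuousLinearMap.continuous _))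
      rintro _ ⟨l, rfl⟩
      exact Submodule.le_topologicalClosure _ (Submodule.subset_span ⟨p :: l, by
        obtain ⟨k, c⟩ := p
        cases c <;> simp [word, List.prod_cons, mul_apply_eq_comp]⟩)
    exact h hv
  have hP : V.starProjection ∈ commutantSet (Set.range g) := by
    rintro _ ⟨k, rfl⟩ v
    refine (Submodule.eq_starProjection_of_mem_of_inner_eq_zero
      (hinv (k, true) _ (V.starProjection_apply_mem v)) (fun w hw => ?_)).symm
    show ⟪g k v - g k (V.starProjection v), w⟫_ℂ = 0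
    rw [← map_sub, ← ContinuousLinearMap.adjoint_inner_right]
    refine Submodule.starProjection_inner_eq_zero v _ ?_
    simpa [ContinuousLinearMap.star_eq_adjoint] using hinv (k, false) w hw
  have hξ : ξ ∈ V := Submodule.le_topologicalClosure _ (Submodule.subset_span ⟨[], rfl⟩)
  refine TopologicalSpace.isSeparable_univ_iff.1
    ((((Set.countable_range _).isSeparable (s := s)).span (R := ℂ)).closure.mono fun v _ => ?_)
  refine hd.induction ?_ isClosed_closure v
  rintro _ ⟨x, hx, rfl⟩
  have e := hgen hP x hx ξ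
  rw [Submodule.starProjection_eq_self_iff.2 hξ] at e
  have h : x ξ ∈ V := Submodule.starProjection_eq_self_iff.1 e.symm
  rwa [hV, ← SetLike.mem_coe, Submodule.topologicalClosure_coe] at h

/-- The standard-form statement on spaces in `Type` gives it in every universe. -/
theorem stdTarget_univ (h : Three.StdTarget) : StdTarget.{u} := by
  obtain ⟨δ, C, hδ, -, h⟩ := h
  refine ⟨δ, C, hδ, fun H _ _ _ M N ξ γ hξ hg hlt hclose => ?_⟩
  obtain ⟨hn, hsep, hd⟩ := hξ
  have := separable_of_gen M ξ hd hg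
  obtain ⟨s, ⟨e⟩⟩ := exists_small H
  haveI : SeparableSpace (lp (fun _ : s => ℂ) 2) :=
    e.toHomeomorph.surjective.denseRange.separableSpace e.continuous
  refine nearConj_carry e (h _ (carry e M) (carry e N) (e ξ) γ ⟨?_, ?_, ?_⟩ hlt (close_carry e hclose))
  · rw [e.norm_map, hn]
  · refine ((e.toHomeomorph.surjective.denseRange.dense_image e.continuous hd)).mono ?_
    rintro _ ⟨_, ⟨x, hx, rfl⟩, rfl⟩
    exact ⟨e.conjStarAlgEquiv x, mem_carry.2 ⟨x, hx, rfl⟩, by simp⟩
  · intro T hT hT0
    obtain ⟨x, hx, rfl⟩ := mem_carry.1 hT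
    rw [hsep x hx (e.injective (by simpa using hT0)), map_zero]

/-- The statement in every universe, from the standard form on separable spaces. -/
theorem allTarget (h : Three.StdTarget) : AllTarget.{u} :=
  allTarget_of_std (stdTarget_univ h)

end Vale.Agent.P096.Three.Univ
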